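import Vale.Agent.P241.H585.Api
import Vale.Agent.P241.H486.Fix
import Vale.Agent.P251.St.ToFunctor
import Vale.Agent.P241.H399.TCone

/-!
# P241, block GEO-A: mapping cones of `G`-maps

`gcone f hf` is the mapping cone of the equivariant map `f : L A ⟶ L B` as a `G`-space;
`gj : L B ⟶ L (gcone f hf)`, `gk : L (xt A Hh) ⟶ L (gcone f hf)`,
`gd : L (gcone f hf) ⟶ L (xt A Rr)` are the structure maps.

* `GCof.pushout`, `isPushout_fix` : pushouts of `G`-cofibrations, fixed points of pushouts;
* `gcof_gj` : `gj` is a `G`-cofibration;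
* `gfc_gcone'` : the mapping cone is a finite `G`-cell space;
* `isCone_fix`, `exists_dist_fix`, `isConeOf_fix` : the fixed points of the mapping cone are the
  mapping cone of the fixed points.
-/

open CategoryTheory MonoidalCategory Limits OnePoint Topology Pretriangulated
open Vale.Agent.P251.G Vale.Agent.P251.G.LC Vale.Agent.P251.St Vale.Agent.P241.St

noncomputable section

namespace Vale.Agent.P241.Geo

variable {G : Type} [Group G]

/-- the retraction criterion for `G`-cofibrations, in `LC` form -/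
theorem gcof_of_isRetr {A B : GSpace G} {i : L A ⟶ L B} (hi : Eqv i)
    (hinj : Function.Injective (app i)) {r : L B ⊗ II ⟶ L B ⊗ II}
    (hr : IsRetr (Set.range (app i)) r) (hrG : ∀ g, (act B g ▷ II) ≫ r = r ≫ (act B g ▷ II)) :
    GCof i := by
  refine (gCofib_iff i).mp (H486.gcofib_of_isRetr (i := ofHom (X := A.und) (Y := B.und) i)
    ((isGMap_iff i).mpr hi) hinj hr ?_)
  intro g b t
  have h := congrArg (fun k => app k (LC.smash b (t : OnePoint unitInterval))) (hrG g)
  simp only [app_comp] at h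
  rw [app_whiskerRight_smash, app_act] at h
  refine h.trans ?_
  obtain ⟨b', t', h'⟩ := smash_coe_surjective (X := B.carrier) (Y := unitInterval)
    (app r (LC.smash b (t : OnePoint unitInterval)))
  rw [← h', app_whiskerRight_smash, app_act]
  exact (H486.smul_smash B ⟨unitInterval⟩ g b' _).symm

/-! ### the base of the cone -/

theorem isRetr_whiskerLeft (X : LC) {A B : LC} (i : A ⟶ B) {r : B ⊗ II ⟶ B ⊗ II}
    (hr : IsRetr (Set.range (app i)) r) :
    IsRetr (Set.range (app (X ◁ i))) ((α_ X B II).hom ≫ X ◁ r ≫ (α_ X B II).inv) := by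
  refine ⟨?_, ?_, ?_⟩
  · intro p
    obtain ⟨x, b, rfl⟩ := smash_surjective (X := X) (Y := B) p
    rw [app_comp, app_comp]
    refine (congrArg _ (congrArg _ (app_associator_smash X B II x b _))).trans ?_
    rw [app_whiskerLeft_smash, hr.zero]
    exact app_associator_inv_smash X B II x b _
  · intro p hp t
    obtain ⟨x, b, rfl⟩ := smash_surjective (X := X) (Y := B) p
    rw [app_comp, app_comp]
    refine (congrArg _ (congrArg _ (app_associator_smash X B II x b _))).trans ?_
    rcases (smash_mem_range_whiskerLeft X i x b).mp hp with rfl | h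
    · exact (congrArg _ (app_whiskerLeft_smash X r ∞ _)).trans (app_infty (α_ X B II).inv)
    · rw [app_whiskerLeft_smash, hr.mem b h]
      exact app_associator_inv_smash X B II x b _
  · intro p
    obtain ⟨p', t, rfl⟩ := smash_coe_surjective (X := (X ⊗ B : LC)) (Y := unitInterval) p
    obtain ⟨x, b, rfl⟩ := smash_surjective (X := X) (Y := B) p'
    obtain ⟨b', t', h1, h2⟩ := hr.range (LC.smash b (t : OnePoint unitInterval))
    refine ⟨LC.smash x b', t', ?_, ?_⟩
    · rw [app_comp, app_comp]
      refine (congrArg _ (congrArg _ (app_associator_smash X B II x b _))).trans ?_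
      rw [app_whiskerLeft_smash, h1]
      exact app_associator_inv_smash X B II x b' _
    · rcases h2 with h2 | h2
      · exact Or.inl h2
      · exact Or.inr (mem_range_whiskerLeft_smash X i (Or.inr h2))

theorem range_coneBase (X : LC) :
    Set.range (app (coneBase X)) = Set.range (app (X ◁ point (X := HH) (0 : NNReal))) := by
  ext p
  constructor
  · rintro ⟨x, rfl⟩
    exact ⟨app (ρ_ X).inv x, rfl⟩
  · rintro ⟨x, rfl⟩
    refine ⟨app (ρ_ X).hom x, ?_⟩
    rw [coneBase, app_comp, ← app_comp (ρ_ X).hom, Iso.hom_inv_id, app_id]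

theorem isRetr_iso {B B' : LC} (e : B ≅ B') {R : Set (OnePoint B)} {r : B ⊗ II ⟶ B ⊗ II}
    (hr : IsRetr R r) : IsRetr (app e.hom '' R) (e.inv ▷ II ≫ r ≫ e.hom ▷ II) := by
  have h1 : ∀ b : OnePoint B, app e.inv (app e.hom b) = b := fun b => by
    rw [← app_comp, e.hom_inv_id, app_id]
  have h2 : ∀ b : OnePoint B', app e.hom (app e.inv b) = b := fun b => by
    rw [← app_comp, e.inv_hom_id, app_id]
  refine ⟨?_, ?_, ?_⟩
  · intro b
    rw [app_comp, app_comp, app_whiskerRight_smash, hr.zero, app_whiskerRight_smash, h2]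
  · rintro _ ⟨b, hb, rfl⟩ t
    rw [app_comp, app_comp, app_whiskerRight_smash, h1, hr.mem b hb, app_whiskerRight_smash]
  · intro p
    obtain ⟨b, t, hb, ht⟩ := hr.range (app (e.inv ▷ II) p)
    refine ⟨app e.hom b, t, ?_, ht.imp id (fun h => ⟨b, h, rfl⟩)⟩
    rw [app_comp, app_comp, hb, app_whiskerRight_smash]

/-- the base of the cone -/
def gbase (A : GSpace G) : L A ⟶ L (xt A Hh) := coneBase (L A) ≫ (pt A Hh).hom

theorem eqv_gbase (A : GSpace G) : Eqv (gbase A) := fun g => by
  change act A g ≫ coneBase (L A) ≫ (pt A Hh).hom =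
    (coneBase (L A) ≫ (pt A Hh).hom) ≫ act (xt A Hh) g
  rw [Category.assoc, pt_act, ← coneBase_naturality_assoc]

theorem injective_iso {X Y : LC} (e : X ≅ Y) : Function.Injective (app e.hom) := by
  intro x y h
  have := congrArg (app e.inv) h
  rwa [← app_comp, ← app_comp, Iso.hom_inv_id] at this

theorem injective_gbase (A : GSpace G) : Function.Injective (app (gbase A)) := by
  intro x y h
  change app (coneBase (L A) ≫ (pt A Hh).hom) x = app (coneBase (L A) ≫ (pt A Hh).hom) y at h
  rw [app_comp, app_comp] at h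
  exact injective_coneBase (L A) (injective_iso (pt A Hh) h)

/-- the base of the cone is a `G`-cofibration -/
theorem gcof_gbase (A : GSpace G) : GCof (gbase A) := by
  obtain ⟨ρ, hρ⟩ := cofib_point_zero.exists_isRetr
  have h := isRetr_iso (pt A Hh) (isRetr_whiskerLeft (L A) _ hρ)
  have hR : app (pt A Hh).hom '' Set.range (app (L A ◁ point (X := HH) (0 : NNReal))) =
      Set.range (app (gbase A)) := by
    rw [← range_coneBase, ← Set.range_comp]
    rfl
  rw [hR] at h
  refine gcof_of_isRetr (eqv_gbase A) (injective_gbase A) h ?_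
  intro g
  have h0 : act (xt A Hh) g ≫ (pt A Hh).inv = (pt A Hh).inv ≫ (act A g ▷ toLC Hh) := by
    rw [Iso.comp_inv_eq, Category.assoc, ← pt_act, Iso.inv_hom_id_assoc]
  have h1 : act (xt A Hh) g ▷ II ≫ (pt A Hh).inv ▷ II =
      (pt A Hh).inv ▷ II ≫ (act A g ▷ toLC Hh) ▷ II := by
    rw [← MonoidalCategory.comp_whiskerRight, ← MonoidalCategory.comp_whiskerRight, h0]
  have h2 : (pt A Hh).hom ▷ II ≫ act (xt A Hh) g ▷ II =
      (act A g ▷ toLC Hh) ▷ II ≫ (pt A Hh).hom ▷ II := by
    rw [← MonoidalCategory.comp_whiskerRight, ← MonoidalCategory.comp_whiskerRight, pt_act]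
  simp only [Category.assoc]
  rw [h2, reassoc_of% h1, MonoidalCategory.associator_naturality_left_assoc,
    ← MonoidalCategory.whisker_exchange_assoc,
    MonoidalCategory.associator_inv_naturality_left_assoc]

/-! ### pushouts -/

section pushout

variable {A B C D : GSpace G} {i : L A ⟶ L B} {f : L A ⟶ L C} {k : L B ⟶ L D} {j : L C ⟶ L D}

theorem GCof.injective (hi : GCof i) : Function.Injective (app i) :=
  H486.injective_of_gcofib ((gCofib_iff i).mpr hi)

/-- pushouts of `G`-cofibrations are `G`-cofibrations -/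
theorem GCof.pushout (hi : GCof i) (hf : Eqv f) (hk : Eqv k) (hj : Eqv j)
    (h : IsPushout i f k j) : GCof j := by
  intro Z F H hF hH hFH
  have h2 : IsPushout (i ▷ II) (f ▷ II) (k ▷ II) (j ▷ II) :=
    isPushout_whiskerRight II hi.injective h
  obtain ⟨K, hK, k0, k1⟩ := hi Z (k ≫ F) (f ▷ II ≫ H) (hk.comp hF)
    (fun g => by
      rw [← Category.assoc, ← MonoidalCategory.comp_whiskerRight, hf g,
        MonoidalCategory.comp_whiskerRight, Category.assoc, hH g, Category.assoc])
    (by rw [incl_naturality_assoc, hFH, ← Category.assoc, ← h.w, Category.assoc])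
  refine ⟨h2.desc K H k1, ?_, ?_, ?_⟩
  · intro g
    apply h2.hom_ext
    · rw [← Category.assoc, ← MonoidalCategory.comp_whiskerRight, ← hk g,
        MonoidalCategory.comp_whiskerRight, Category.assoc, IsPushout.inl_desc,
        IsPushout.inl_desc_assoc, hK g]
    · rw [← Category.assoc, ← MonoidalCategory.comp_whiskerRight, ← hj g,
        MonoidalCategory.comp_whiskerRight, Category.assoc, IsPushout.inr_desc,
        IsPushout.inr_desc_assoc, hH g]
  · apply h.hom_ext
    · rw [← incl_naturality_assoc, IsPushout.inl_desc, k0]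
    · rw [← incl_naturality_assoc, IsPushout.inr_desc, hFH]
  · exact IsPushout.inr_desc _ _ _ _

/-- the fixed points of a pushout square -/
theorem isPushout_fix (hi : Eqv i) (hf : Eqv f) (hk : Eqv k) (hj : Eqv j)
    (hinj : Function.Injective (app i)) (h : IsPushout i f k j) (V : Subgroup G) :
    IsPushout (fixMap i hi V) (fixMap f hf V) (fixMap k hk V) (fixMap j hj V) := by
  obtain ⟨hji, hb⟩ := bij_of_isPushout hinj h
  have hι : ∀ x, app (fixι D V) (app (fixMap k hk V) x) = app k (app (fixι B V) x) := fun x => by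
    rw [← app_comp, fixMap_ι, app_comp]
  refine isPushout_of ?_ (injective_fixMap hj hji V) ⟨?_, ?_, ?_⟩
  · rw [← cancel_mono (fixι D V), Category.assoc, Category.assoc, fixMap_ι, fixMap_ι,
      fixMap_ι_assoc, fixMap_ι_assoc, h.w]
  · intro x hx hx'
    rw [mem_range_fixMap hj hji, hι] at hx'
    exact hb.mapsTo (fun h' => hx ((mem_range_fixMap hi hinj V x).mpr h')) hx'
  · intro x hx x' hx' hxx
    apply injective_fixι B V
    have h1 := congrArg (app (fixι D V)) hxx
    rw [hι, hι] at h1
    exact hb.injOn (fun h' => hx ((mem_range_fixMap hi hinj V x).mpr h'))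
      (fun h' => hx' ((mem_range_fixMap hi hinj V x').mpr h')) h1
  · intro y hy
    have hy' : app (fixι D V) y ∉ Set.range (app j) := fun h' =>
      hy ((mem_range_fixMap hj hji V y).mpr h')
    obtain ⟨b, hbm, hbe⟩ := hb.surjOn hy'
    have hfix : b ∈ Set.range (app (fixι B V)) := by
      rw [mem_range_fixι]
      intro g hg
      apply hb.injOn _ hbm
      · rw [← app_comp, hk g, app_comp, hbe]
        exact (mem_range_fixι D V _).mp ⟨y, rfl⟩ g hg
      · rintro ⟨a, ha⟩
        apply hbm
        refine ⟨app (act A g⁻¹) a, ?_⟩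
        rw [← app_comp, hi, app_comp, ha, ← app_comp, act_comp_inv, app_id]
    obtain ⟨b', rfl⟩ := hfix
    refine ⟨b', fun h' => hbm ((mem_range_fixMap hi hinj V b').mp h'), ?_⟩
    apply injective_fixι D V
    rw [hι, hbe]

end pushout

variable {A B : GSpace G} (f : L A ⟶ L B) (hf : Eqv f)

theorem coneMap_id {X Y : LC} (f : X ⟶ Y) : coneMap (f := f) (f' := f) (𝟙 X) (𝟙 Y) (by simp) = 𝟙 _ := by
  apply cone_hom_ext
  · rw [coneInl_map, MonoidalCategory.id_whiskerRight, Category.id_comp, Category.comp_id]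
  · rw [coneInr_map, Category.id_comp, Category.comp_id]

/-- The mapping cone of a `G`-map. -/
def gcone : GSpace G :=
  mkG (cone f) (fun g => coneMap (act A g) (act B g) (hf g).symm)
    (by
      apply cone_hom_ext
      · rw [coneInl_map, act_one, MonoidalCategory.id_whiskerRight, Category.id_comp,
          Category.comp_id]
      · rw [coneInr_map, act_one, Category.id_comp, Category.comp_id])
    (fun g h => by
      apply cone_hom_ext
      · rw [coneInl_map, coneInl_map_assoc, coneInl_map, act_mul,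
          MonoidalCategory.comp_whiskerRight, Category.assoc]
      · rw [coneInr_map, coneInr_map_assoc, coneInr_map, act_mul, Category.assoc])

theorem act_gcone (g : G) :
    act (gcone f hf) g = coneMap (act A g) (act B g) (hf g).symm := act_mkG _ _ _ _ g

/-- the inclusion of the target in the mapping cone -/
def gj : L B ⟶ L (gcone f hf) := coneInr f

/-- the map of the cylinder to the mapping cone -/
def gk : L (xt A Hh) ⟶ L (gcone f hf) := (pt A Hh).inv ≫ coneInl f

/-- the connecting map -/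
def gd : L (gcone f hf) ⟶ L (xt A Rr) := coneConn f ≫ (pt A Rr).hom

theorem eqv_gj : Eqv (gj f hf) := fun g => by
  rw [act_gcone]
  exact (coneInr_map (f := f) (f' := f) (act A g) (act B g) (hf g).symm).symm

theorem eqv_gk : Eqv (gk f hf) := fun g => by
  rw [act_gcone, ← cancel_epi (pt A Hh).hom, pt_act_assoc]
  change (act A g ▷ HH) ≫ (pt A Hh).hom ≫ (pt A Hh).inv ≫ coneInl f =
    (pt A Hh).hom ≫ ((pt A Hh).inv ≫ coneInl f) ≫ coneMap (act A g) (act B g) (hf g).symm
  rw [Category.assoc, Iso.hom_inv_id_assoc, Iso.hom_inv_id_assoc, coneInl_map]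

theorem eqv_gd : Eqv (gd f hf) := fun g => by
  rw [act_gcone]
  change coneMap (act A g) (act B g) (hf g).symm ≫ coneConn f ≫ (pt A Rr).hom =
    (coneConn f ≫ (pt A Rr).hom) ≫ act (xt A Rr) g
  rw [Category.assoc, pt_act, ← Category.assoc, coneMap_conn, Category.assoc]

theorem isPushout_gcone : IsPushout (gbase A) f (gk f hf) (gj f hf) := by
  refine IsPushout.of_iso (isPushout_cone f) (Iso.refl _) (pt A Hh) (Iso.refl _) (Iso.refl _)
    ?_ ?_ ?_ ?_
  · rw [Iso.refl_hom, Category.id_comp]
    rfl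
  · rw [Iso.refl_hom, Iso.refl_hom, Category.id_comp, Category.comp_id]
  · exact (Category.comp_id _).trans (Iso.hom_inv_id_assoc (pt A Hh) (coneInl f)).symm
  · exact (Category.comp_id (coneInr f)).trans (Category.id_comp (coneInr f)).symm

theorem injective_gj : Function.Injective (app (gj f hf)) := injective_coneInr f

/-- The inclusion of the target in the mapping cone is a `G`-cofibration. -/
theorem gcof_gj : GCof (gj f hf) :=
  (gcof_gbase A).pushout hf (eqv_gk f hf) (eqv_gj f hf) (isPushout_gcone f hf)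

@[reassoc]
theorem gj_gd : gj f hf ≫ gd f hf = 0 := by
  change coneInr f ≫ coneConn f ≫ (pt A Rr).hom = 0
  rw [coneInr_conn_assoc, zero_comp]

@[reassoc]
theorem gk_gd : gk f hf ≫ gd f hf = wl A openPart := by
  change ((pt A Hh).inv ≫ coneInl f) ≫ coneConn f ≫ (pt A Rr).hom =
    (pt A Hh).inv ≫ (L A ◁ openPart) ≫ (pt A Rr).hom
  rw [Category.assoc, coneInl_conn_assoc]
  rfl

/-! ### finite `G`-cell spaces -/

theorem isPushout_gd : IsPushout (gj f hf) (0 : L B ⟶ LC.of Empty) (gd f hf) 0 := by
  refine IsPushout.of_iso (isPushout_coneConn f isZero_empty 0 0) (Iso.refl _) (Iso.refl _)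
    (Iso.refl _) (pt A Rr) ?_ ?_ ?_ ?_
  · exact (Category.comp_id (coneInr f)).trans (Category.id_comp (coneInr f)).symm
  · rw [Iso.refl_hom, Iso.refl_hom, Category.id_comp, Category.comp_id]
  · exact (Category.id_comp (coneConn f ≫ (pt A Rr).hom)).symm
  · rw [Iso.refl_hom, Category.id_comp, zero_comp]

theorem surjective_of_isPushout_zero {A B C Z : LC} (hZ : IsZero Z) {i : A ⟶ B} {q : B ⟶ C}
    {a : A ⟶ Z} {b : Z ⟶ C} (hi : Function.Injective (app i)) (h : IsPushout i a q b) :
    Function.Surjective (app q) := by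
  intro c
  rcases surj_of_isPushout hi h c with h1 | ⟨z, hz⟩
  · exact h1
  · refine ⟨∞, ?_⟩
    rw [app_infty, ← hz, hZ.eq_of_src b 0, app_zero]

theorem eq_iff_of_isPushout_zero {A B C Z : LC} (hZ : IsZero Z) {i : A ⟶ B} {q : B ⟶ C}
    {a : A ⟶ Z} {b : Z ⟶ C} (hi : Function.Injective (app i)) (h : IsPushout i a q b)
    (x x' : OnePoint B) : app q x = app q x' ↔
      x = x' ∨ (x ∈ Set.range (app i) ∧ x' ∈ Set.range (app i)) := by
  obtain ⟨hb, hbij⟩ := bij_of_isPushout hi h
  have hzero : ∀ y, app q (app i y) = ∞ := fun y => by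
    rw [← app_comp, h.w, app_comp, hZ.eq_of_src b 0, app_zero]
  have hne : ∀ y, y ∉ Set.range (app i) → app q y ≠ ∞ := fun y hy h' =>
    hbij.mapsTo hy ⟨∞, by rw [app_infty, h']⟩
  constructor
  · intro hxx
    by_cases hx : x ∈ Set.range (app i)
    · by_cases hx' : x' ∈ Set.range (app i)
      · exact Or.inr ⟨hx, hx'⟩
      · obtain ⟨y, rfl⟩ := hx
        exact absurd (hxx.symm.trans (hzero y)) (hne x' hx')
    · by_cases hx' : x' ∈ Set.range (app i)
      · obtain ⟨y, rfl⟩ := hx'
        exact absurd (hxx.trans (hzero y)) (hne x hx)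
      · exact Or.inl (hbij.injOn hx hx' hxx)
  · rintro (rfl | ⟨⟨y, rfl⟩, ⟨y', rfl⟩⟩)
    · rfl
    · rw [hzero, hzero]

/-- The mapping cone of a map of finite `G`-cell spaces is a finite `G`-cell space. -/
theorem gfc_gcone' (hB : GFC G B) (hA : GFC G (xt A Rr)) : GFC G (gcone f hf) :=
  GFC.ext' (eqv_gj f hf) (eqv_gd f hf) (gcof_gj f hf)
    (surjective_of_isPushout_zero isZero_empty (injective_gj f hf) (isPushout_gd f hf))
    (eq_iff_of_isPushout_zero isZero_empty (injective_gj f hf) (isPushout_gd f hf)) hB hA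

/-! ### fixed points -/

theorem fixXt_gbase (V : Subgroup G) :
    fixMap (gbase A) (eqv_gbase A) V = coneBase (fixL A V) ≫ (fixXt A Hh V).hom := by
  rw [← cancel_mono (fixι (xt A Hh) V), fixMap_ι, Category.assoc, fixXt_hom_ι]
  change fixι A V ≫ coneBase (L A) ≫ (pt A Hh).hom =
    coneBase (fixL A V) ≫ (fixι A V ▷ HH) ≫ (pt A Hh).hom
  rw [coneBase_naturality_assoc]

/-- the fixed points of the mapping cone are the mapping cone of the fixed points -/
theorem isPushout_fixCone (V : Subgroup G) :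
    IsPushout (coneBase (fixL A V)) (fixMap f hf V)
      ((fixXt A Hh V).hom ≫ fixMap (gk f hf) (eqv_gk f hf) V)
      (fixMap (gj f hf) (eqv_gj f hf) V) := by
  refine IsPushout.of_iso (isPushout_fix (eqv_gbase A) hf (eqv_gk f hf) (eqv_gj f hf)
    (injective_gbase A) (isPushout_gcone f hf) V) (Iso.refl _) (fixXt A Hh V).symm (Iso.refl _)
    (Iso.refl _) ?_ ?_ ?_ ?_
  · rw [Iso.refl_hom, Category.id_comp, fixXt_gbase, Category.assoc, Iso.symm_hom,
      Iso.hom_inv_id, Category.comp_id]
  · rw [Iso.refl_hom, Iso.refl_hom, Category.id_comp, Category.comp_id]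
  · rw [Iso.refl_hom, Category.comp_id, Iso.symm_hom, Iso.inv_hom_id_assoc]
  · rw [Iso.refl_hom, Iso.refl_hom, Category.id_comp, Category.comp_id]

/-- the fixed points of the mapping cone are the mapping cone of the fixed points, in the form of
the statement layer -/
theorem isCone_fix (V : Subgroup G) :
    IsCone (X := A.fix V) (Y := B.fix V) (C := (gcone f hf).fix V)
      (ofHom (X := A.fix V) (Y := B.fix V) (fixMap f hf V))
      (ofHom (X := B.fix V) (Y := (gcone f hf).fix V) (fixMap (gj f hf) (eqv_gj f hf) V))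
      (ofHom (X := (A.fix V).prod Hh) (Y := (gcone f hf).fix V)
        ((fixXt A Hh V).hom ≫ fixMap (gk f hf) (eqv_gk f hf) V))
      (ofHom (X := (gcone f hf).fix V) (Y := (A.fix V).prod Rr)
        (fixMap (gd f hf) (eqv_gd f hf) V ≫ (fixXt A Rr V).inv)) := by
  rw [isCone_iff]
  refine ⟨isPushout_fixCone f hf V, ?_, ?_⟩
  · change fixMap (gj f hf) (eqv_gj f hf) V ≫ fixMap (gd f hf) (eqv_gd f hf) V ≫
      (fixXt A Rr V).inv = 0
    rw [← Category.assoc, ← fixMap_comp, fixMap_congr (gj_gd f hf), fixMap_zero, zero_comp]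
  · change ((fixXt A Hh V).hom ≫ fixMap (gk f hf) (eqv_gk f hf) V) ≫
      fixMap (gd f hf) (eqv_gd f hf) V ≫ (fixXt A Rr V).inv = fixL A V ◁ openPart
    rw [Category.assoc, ← Category.assoc (fixMap (gk f hf) _ V), ← fixMap_comp,
      fixMap_congr (gk_gd f hf), fixXt_wl_assoc A (Y := Hh) (Y' := Rr) openPart V,
      Iso.hom_inv_id, Category.comp_id]

/-- **The fixed points of the mapping cone**: a distinguished triangle in `T`. -/
theorem exists_dist_fix {T : SHCat} (S : Susp T) (V : Subgroup G) (hA : FC (A.fix V))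
    (hB : FC (B.fix V)) (hC : FC ((gcone f hf).fix V)) :
    ∃ δ : S.obj ((gcone f hf).fix V) ⟶ (S.obj (A.fix V))⟦(1 : ℤ)⟧,
      Triangle.mk (S.map (ofHom (X := A.fix V) (Y := B.fix V) (fixMap f hf V)))
        (S.map (ofHom (X := B.fix V) (Y := (gcone f hf).fix V)
          (fixMap (gj f hf) (eqv_gj f hf) V))) δ ∈ distTriang T.C := by
  have hi : IsIso (S.mul (A.fix V) Rr) := S.mul_isIso hA H399.fc_Rr
  have h := S.cone _ _ _ _
    (S.map (ofHom (X := (gcone f hf).fix V) (Y := (A.fix V).prod Rr)
        (fixMap (gd f hf) (eqv_gd f hf) V ≫ (fixXt A Rr V).inv)) ≫ inv (S.mul (A.fix V) Rr))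
    hA hB hC (isCone_fix f hf V) (by
      change (_ ≫ inv (S.mul (A.fix V) Rr)) ≫ S.mul (A.fix V) Rr = _
      rw [Category.assoc, IsIso.inv_hom_id, Category.comp_id])
  exact ⟨_, h⟩

theorem isConeOf_fix {T : SHCat} (S : Susp T) (V : Subgroup G) (hA : FC (A.fix V))
    (hB : FC (B.fix V)) (hC : FC ((gcone f hf).fix V)) :
    H399.IsConeOf (S.map (ofHom (X := A.fix V) (Y := B.fix V) (fixMap f hf V)))
      (S.obj ((gcone f hf).fix V)) := by
  obtain ⟨δ, h⟩ := exists_dist_fix f hf S V hA hB hC
  exact ⟨_, _, h⟩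

end Vale.Agent.P241.Geo
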