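import Vale.Agent.P241.St.Defs
import Vale.Agent.P251.St.ToLC
import Vale.Agent.P251.G.Cofib
import Vale.Agent.P251.G.FinSum

/-!
# P241, block GEO-A: dictionary between `G`-spaces and objects of `LC` with an action

* `L X : LC`, `act X g : L X ⟶ L X` (the action of `g`), `Eqv f` (`f` commutes with the action).
* `mkG Z a h1 h2` : the `G`-space given by an object `Z : LC` and action morphisms `a g : Z ⟶ Z`.
* `EqvH K` : `K : L X ⊗ II ⟶ L Y` is an equivariant homotopy; `GHtp f g`, `GCof i`, `GHE X Y`: the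
  notions of `GSpace.lean` in `LC` form.
* `fixι X V : fixL X V ⟶ L X`, `fixMap f hf V`, `fixHt K hK V`: fixed points.
-/

open CategoryTheory MonoidalCategory Limits OnePoint Topology
open Vale.Agent.P251.G Vale.Agent.P251.G.LC Vale.Agent.P251.St Vale.Agent.P241.St

noncomputable section

namespace Vale.Agent.P241.Geo

variable {G : Type} [Group G]

/-- the object of `LC` -/
abbrev L (X : GSpace G) : LC := toLC X.und

/-- the action of `g` as an isomorphism of `LC` -/
def actI (X : GSpace G) (g : G) : L X ≅ L X :=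
  ofHomeo (X := L X) (Y := L X) (Homeomorph.smul g)

/-- the action of `g` -/
def act (X : GSpace G) (g : G) : L X ⟶ L X := (actI X g).hom

theorem app_act_coe (X : GSpace G) (g : G) (x : X.carrier) :
    app (act X g) (x : OnePoint X.carrier) = ((g • x : X.carrier) : OnePoint X.carrier) := rfl

theorem app_act (X : GSpace G) (g : G) (x : X.und.Pt) : app (act X g) x = X.smul g x := by
  induction x using OnePoint.rec with
  | infty => exact app_infty _
  | coe x => rfl

theorem act_one (X : GSpace G) : act X 1 = 𝟙 (L X) := by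
  apply hom_ext
  intro x
  rw [app_act_coe, one_smul]
  rfl

theorem act_mul (X : GSpace G) (g h : G) : act X (g * h) = act X h ≫ act X g := by
  apply hom_ext
  intro x
  rw [app_comp, app_act_coe, app_act_coe, app_act_coe, mul_smul]

@[reassoc]
theorem act_inv_comp (X : GSpace G) (g : G) : act X g⁻¹ ≫ act X g = 𝟙 (L X) := by
  rw [← act_mul, mul_inv_cancel, act_one]

@[reassoc]
theorem act_comp_inv (X : GSpace G) (g : G) : act X g ≫ act X g⁻¹ = 𝟙 (L X) := by
  rw [← act_mul, inv_mul_cancel, act_one]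

/-- `f` is equivariant -/
def Eqv {X Y : GSpace G} (f : L X ⟶ L Y) : Prop := ∀ g : G, act X g ≫ f = f ≫ act Y g

theorem isGMap_iff {X Y : GSpace G} (f : L X ⟶ L Y) :
    IsGMap (X := X) (Y := Y) (app f) ↔ Eqv f := by
  constructor
  · intro h g
    apply app_ext
    intro x
    rw [app_comp, app_comp, app_act, app_act]
    exact h g x
  · intro h g x
    rw [← app_act, ← app_act, ← app_comp, ← app_comp, h g]

theorem eqv_id (X : GSpace G) : Eqv (𝟙 (L X)) := fun g => by
  rw [Category.comp_id, Category.id_comp]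

theorem eqv_zero (X Y : GSpace G) : Eqv (0 : L X ⟶ L Y) := fun g => by
  rw [comp_zero, zero_comp]

theorem Eqv.comp {X Y Z : GSpace G} {f : L X ⟶ L Y} {f' : L Y ⟶ L Z} (h : Eqv f) (h' : Eqv f') :
    Eqv (f ≫ f') := fun g => by
  rw [← Category.assoc, h g, Category.assoc, h' g, Category.assoc]

theorem Eqv.inv {X Y : GSpace G} (e : L X ≅ L Y) (h : Eqv e.hom) : Eqv e.inv := fun g => by
  rw [Iso.comp_inv_eq, Category.assoc, h g, Iso.inv_hom_id_assoc]

/-! ### `G`-spaces from action morphisms -/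

/-- the value of an automorphism of `Z` at a point of `Z` -/
theorem app_ne_infty {Z W : LC} {a : Z ⟶ W} {b : W ⟶ Z} (h : a ≫ b = 𝟙 Z) (z : Z) :
    app a (z : OnePoint Z) ≠ ∞ := by
  intro hz
  have h1 : app (a ≫ b) (z : OnePoint Z) = z := by rw [h, app_id]
  rw [app_comp, hz, app_infty] at h1
  exact OnePoint.coe_ne_infty z h1.symm

section mkG

variable (Z : LC) (a : G → (Z ⟶ Z)) (h1 : a 1 = 𝟙 Z) (hm : ∀ g h, a (g * h) = a h ≫ a g)

include h1 hm in
theorem mk_inv (g : G) : a g ≫ a g⁻¹ = 𝟙 Z := by rw [← hm, inv_mul_cancel, h1]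

/-- the value of `a g` at a point -/
def mkVal (g : G) (z : Z) : Z :=
  (OnePoint.ne_infty_iff_exists.mp (app_ne_infty (mk_inv Z a h1 hm g) z)).choose

theorem coe_mkVal (g : G) (z : Z) :
    ((mkVal Z a h1 hm g z : Z) : OnePoint Z) = app (a g) (z : OnePoint Z) :=
  (OnePoint.ne_infty_iff_exists.mp (app_ne_infty (mk_inv Z a h1 hm g) z)).choose_spec

/-- The `G`-space given by an object `Z` of `LC` and action morphisms `a g : Z ⟶ Z`. -/
def mkG : GSpace G :=
  letI : MulAction G Z :=
    { smul := mkVal Z a h1 hm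
      one_smul := fun z => by
        apply OnePoint.coe_injective
        change ((mkVal Z a h1 hm 1 z : Z) : OnePoint Z) = z
        rw [coe_mkVal, h1, app_id]
      mul_smul := fun g h z => by
        apply OnePoint.coe_injective
        change ((mkVal Z a h1 hm (g * h) z : Z) : OnePoint Z) =
          ((mkVal Z a h1 hm g (mkVal Z a h1 hm h z) : Z) : OnePoint Z)
        rw [coe_mkVal, coe_mkVal, coe_mkVal, hm, app_comp] }
  haveI : ContinuousConstSMul G Z := ⟨fun g => by
    rw [OnePoint.isOpenEmbedding_coe.isEmbedding.continuous_iff]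
    have h : ((↑) : Z → OnePoint Z) ∘ (fun z : Z => g • z) = app (a g) ∘ ((↑) : Z → OnePoint Z) :=
      funext fun z => coe_mkVal Z a h1 hm g z
    rw [h]
    exact (continuous_app _).comp OnePoint.continuous_coe⟩
  ⟨Z⟩

theorem L_mkG : L (mkG Z a h1 hm) = Z := rfl

theorem act_mkG (g : G) : act (mkG Z a h1 hm) g = a g := by
  apply hom_ext
  intro z
  exact coe_mkVal Z a h1 hm g z

end mkG

/-! ### equivariant homotopies -/

/-- `K` is equivariant (trivial action on the interval) -/
def EqvH {X Y : GSpace G} (K : L X ⊗ II ⟶ L Y) : Prop :=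
  ∀ g : G, (act X g ▷ II) ≫ K = K ≫ act Y g

/-- homotopic through equivariant maps -/
def GHtp {X Y : GSpace G} (f g : L X ⟶ L Y) : Prop :=
  ∃ K : L X ⊗ II ⟶ L Y, EqvH K ∧ incl 0 _ ≫ K = f ∧ incl 1 _ ≫ K = g

theorem isGHtpy_of_hom {X Y : GSpace G} {K : L X ⊗ II ⟶ L Y} (hK : EqvH K) :
    IsGHtpy (X := X) (Y := Y)
      (fun t x => app K (LC.smash x (t : OnePoint unitInterval))) := by
  refine ⟨isHtpy_of_hom (X := X.und) (Y := Y.und) K, fun t g x => ?_⟩
  have h := congrArg (fun k => app k (LC.smash x (t : OnePoint unitInterval))) (hK g)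
  simp only [app_comp] at h
  rw [app_whiskerRight_smash, app_act, app_act] at h
  exact h

theorem eqvH_htpyMap {X Y : GSpace G} {H : unitInterval → X.und.Pt → Y.und.Pt}
    (h : IsGHtpy (X := X) (Y := Y) H) :
    EqvH (X := X) (Y := Y) (htpyMap (X := X.und) (Y := Y.und) H h.1) := by
  intro g
  apply tensor_ext
  intro x t
  rw [app_comp, app_comp, app_whiskerRight_smash]
  refine (app_htpyMap (X := X.und) (Y := Y.und) H h.1 _ t).trans ?_
  refine Eq.trans ?_ (congrArg (app (act Y g))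
    (app_htpyMap (X := X.und) (Y := Y.und) H h.1 _ t)).symm
  rw [app_act, app_act]
  exact h.2 t g _

theorem gHomotopic_iff {X Y : GSpace G} (f g : L X ⟶ L Y) :
    GHomotopic (X := X) (Y := Y) (app f) (app g) ↔ GHtp f g := by
  constructor
  · rintro ⟨H, h, h0, h1⟩
    refine ⟨_, eqvH_htpyMap h, ?_, ?_⟩
    · apply app_ext
      intro x
      rw [app_comp, app_incl]
      refine (app_htpyMap (X := X.und) (Y := Y.und) H h.1 x 0).trans ?_
      rw [h0]
    · apply app_ext
      intro x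
      rw [app_comp, app_incl]
      refine (app_htpyMap (X := X.und) (Y := Y.und) H h.1 x 1).trans ?_
      rw [h1]
  · rintro ⟨K, hK, h0, h1⟩
    refine ⟨_, isGHtpy_of_hom hK, ?_, ?_⟩
    · funext x
      have := congrArg (fun k => app k x) h0
      simp only [app_comp, app_incl] at this
      exact this
    · funext x
      have := congrArg (fun k => app k x) h1
      simp only [app_comp, app_incl] at this
      exact this

theorem GHtp.refl {X Y : GSpace G} {f : L X ⟶ L Y} (hf : Eqv f) : GHtp f f := by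
  refine ⟨constH (L X) ≫ f, fun g => ?_, ?_, ?_⟩
  · apply tensor_ext
    intro x t
    rw [app_comp, app_comp, app_comp, app_comp, app_whiskerRight_smash]
    refine (congrArg (app f) (app_constH (L X) _ t)).trans ?_
    refine Eq.trans ?_ (congrArg (fun z => app (act Y g) (app f z)) (app_constH (L X) _ t)).symm
    exact congrArg (fun k => app k (x : OnePoint X.carrier)) (hf g)
  · rw [← Category.assoc, incl_constH, Category.id_comp]
  · rw [← Category.assoc, incl_constH, Category.id_comp]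

theorem GHtp.comp_right {X Y Z : GSpace G} {f f' : L X ⟶ L Y} (h : GHtp f f') {k : L Y ⟶ L Z}
    (hk : Eqv k) : GHtp (f ≫ k) (f' ≫ k) := by
  obtain ⟨K, hK, h0, h1⟩ := h
  refine ⟨K ≫ k, fun g => ?_, ?_, ?_⟩
  · rw [← Category.assoc, hK g, Category.assoc, hk g, Category.assoc]
  · rw [← Category.assoc, h0]
  · rw [← Category.assoc, h1]

theorem GHtp.comp_left {X Y Z : GSpace G} {k : L X ⟶ L Y} (hk : Eqv k) {f f' : L Y ⟶ L Z}
    (h : GHtp f f') : GHtp (k ≫ f) (k ≫ f') := by
  obtain ⟨K, hK, h0, h1⟩ := h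
  refine ⟨k ▷ II ≫ K, fun g => ?_, ?_, ?_⟩
  · rw [← Category.assoc, ← MonoidalCategory.comp_whiskerRight, hk g,
      MonoidalCategory.comp_whiskerRight, Category.assoc, hK g, Category.assoc]
  · rw [incl_naturality_assoc, h0]
  · rw [incl_naturality_assoc, h1]

theorem GHtp.homotopic {X Y : GSpace G} {f f' : L X ⟶ L Y} (h : GHtp f f') :
    LC.Homotopic f f' := by
  obtain ⟨K, -, h0, h1⟩ := h
  exact ⟨K, h0, h1⟩

/-- `G`-homotopy equivalent, in `LC` form -/
def GHE (X Y : GSpace G) : Prop :=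
  ∃ (f : L X ⟶ L Y) (f' : L Y ⟶ L X), Eqv f ∧ Eqv f' ∧ GHtp (f ≫ f') (𝟙 (L X)) ∧
    GHtp (f' ≫ f) (𝟙 (L Y))

theorem gHEquiv_iff (X Y : GSpace G) : GHEquiv X Y ↔ GHE X Y := by
  constructor
  · rintro ⟨f, f', h1, h2, h3, h4⟩
    exact ⟨toHom f, toHom f', (isGMap_iff (toHom f)).mp h1, (isGMap_iff (toHom f')).mp h2,
      (gHomotopic_iff (toHom f ≫ toHom f') (𝟙 _)).mp h3,
      (gHomotopic_iff (toHom f' ≫ toHom f) (𝟙 _)).mp h4⟩
  · rintro ⟨f, f', h1, h2, h3, h4⟩
    exact ⟨ofHom (X := X.und) (Y := Y.und) f, ofHom (X := Y.und) (Y := X.und) f',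
      (isGMap_iff f).mpr h1, (isGMap_iff f').mpr h2,
      (gHomotopic_iff (f ≫ f') (𝟙 _)).mpr h3, (gHomotopic_iff (f' ≫ f) (𝟙 _)).mpr h4⟩

/-- `G`-homeomorphic spaces are `G`-homotopy equivalent -/
theorem GHE.of_iso {X Y : GSpace G} (e : L X ≅ L Y) (he : Eqv e.hom) : GHE X Y :=
  ⟨e.hom, e.inv, he, he.inv e, by rw [e.hom_inv_id]; exact GHtp.refl (eqv_id X),
    by rw [e.inv_hom_id]; exact GHtp.refl (eqv_id Y)⟩

theorem GFC.of_iso' {X Y : GSpace G} (h : GFC G X) (e : L X ≅ L Y) (he : Eqv e.hom) : GFC G Y :=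
  GFC.hequiv h ((gHEquiv_iff X Y).mpr (GHE.of_iso e he))

/-- the equivariant homotopy extension property, in `LC` form -/
def GCof {A B : GSpace G} (i : L A ⟶ L B) : Prop :=
  ∀ (Z : GSpace G) (f : L B ⟶ L Z) (H : L A ⊗ II ⟶ L Z), Eqv f → EqvH H →
    incl 0 _ ≫ H = i ≫ f → ∃ K : L B ⊗ II ⟶ L Z, EqvH K ∧ incl 0 _ ≫ K = f ∧ i ▷ II ≫ K = H

theorem gCofib_iff {A B : GSpace G} (i : L A ⟶ L B) :
    GCofib (A := A) (B := B) (ofHom (X := A.und) (Y := B.und) i) ↔ GCof i := by
  constructor
  · intro hi Z f H hf hH hfH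
    obtain ⟨K, hK, h0, h1⟩ := hi Z (ofHom (X := B.und) (Y := Z.und) f) _
      ((isGMap_iff f).mpr hf) (isGHtpy_of_hom hH) (by
        funext a
        have := congrArg (fun k => app k a) hfH
        simp only [app_comp, app_incl] at this
        exact this)
    refine ⟨_, eqvH_htpyMap hK, ?_, ?_⟩
    · apply app_ext
      intro x
      rw [app_comp, app_incl]
      refine (app_htpyMap (X := B.und) (Y := Z.und) K hK.1 x 0).trans ?_
      rw [h0]
    · apply tensor_ext
      intro a t
      rw [app_comp, app_whiskerRight_smash]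
      refine (app_htpyMap (X := B.und) (Y := Z.und) K hK.1 _ t).trans ?_
      exact congrFun (h1 t) a
  · intro hi Z f H hf hH h0
    obtain ⟨K, hK, hK0, hK1⟩ := hi Z (toHom f) (htpyMap (X := A.und) (Y := Z.und) H hH.1)
      ((isGMap_iff (toHom f)).mp hf) (eqvH_htpyMap hH) (by
        apply app_ext
        intro x
        rw [app_comp, app_incl]
        refine (app_htpyMap (X := A.und) (Y := Z.und) H hH.1 x 0).trans ?_
        rw [h0]
        rfl)
    refine ⟨_, isGHtpy_of_hom hK, ?_, ?_⟩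
    · funext x
      have := congrArg (fun k => app k x) hK0
      simp only [app_comp, app_incl] at this
      exact this
    · intro t
      funext a
      have h1 := congrArg (fun k => app k (LC.smash a (t : OnePoint unitInterval))) hK1
      simp only [app_comp] at h1
      rw [app_whiskerRight_smash] at h1
      exact h1.trans (app_htpyMap (X := A.und) (Y := Z.und) H hH.1 a t)

/-- extensions along `G`-cofibrations, in `LC` form -/
theorem GFC.ext' {A B C : GSpace G} {i : L A ⟶ L B} {q : L B ⟶ L C} (hi : Eqv i) (hq : Eqv q)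
    (hc : GCof i) (hs : Function.Surjective (app q))
    (hk : ∀ b b' : OnePoint B.carrier, app q b = app q b' ↔
      b = b' ∨ (b ∈ Set.range (app i) ∧ b' ∈ Set.range (app i)))
    (hA : GFC G A) (hC : GFC G C) : GFC G B :=
  GFC.ext (i := ofHom (X := A.und) (Y := B.und) i) (q := ofHom (X := B.und) (Y := C.und) q)
    ((isGMap_iff i).mpr hi) ((isGMap_iff q).mpr hq) ((gCofib_iff i).mpr hc) ⟨hs, hk⟩ hA hC

/-! ### fixed points -/

section fix

/-- the fixed points as an object of `LC` -/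
abbrev fixL (X : GSpace G) (V : Subgroup G) : LC := toLC (X.fix V)

theorem isClosedEmbedding_fix (X : GSpace G) (V : Subgroup G) :
    IsClosedEmbedding (fun x : MulAction.fixedPoints V X.carrier => (x.1 : X.carrier)) :=
  (X.isClosed_fixedPoints V).isClosedEmbedding_subtypeVal

/-- the inclusion of the fixed points -/
def fixι (X : GSpace G) (V : Subgroup G) : fixL X V ⟶ L X :=
  ofClosed (X := fixL X V) (Y := L X) (fun x => x.1) (isClosedEmbedding_fix X V)

theorem app_fixι_coe (X : GSpace G) (V : Subgroup G) (x : fixL X V) :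
    app (fixι X V) (x : OnePoint (fixL X V)) = ((x.1 : X.carrier) : OnePoint X.carrier) := rfl

theorem injective_fixι (X : GSpace G) (V : Subgroup G) : Function.Injective (app (fixι X V)) :=
  injective_app_ofClosed (Y := L X) _ (isClosedEmbedding_fix X V)

instance mono_fixι (X : GSpace G) (V : Subgroup G) : Mono (fixι X V) :=
  mono_of_injective (injective_fixι X V)

theorem mem_range_fixι (X : GSpace G) (V : Subgroup G) (x : OnePoint (L X)) :
    x ∈ Set.range (app (fixι X V)) ↔ ∀ g ∈ V, app (act X g) x = x := by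
  induction x using OnePoint.rec with
  | infty => exact ⟨fun _ g _ => app_infty _, fun _ => ⟨∞, app_infty _⟩⟩
  | coe x =>
    constructor
    · rintro ⟨y, hy⟩ g hg
      induction y using OnePoint.rec with
      | infty => exact absurd ((app_infty (fixι X V)).symm.trans hy) (OnePoint.infty_ne_coe _)
      | coe y =>
        rw [app_fixι_coe] at hy
        rw [← OnePoint.coe_injective hy, app_act_coe]
        exact congrArg _ (y.2 ⟨g, hg⟩)
    · intro h
      exact ⟨OnePoint.some (⟨x, fun g => OnePoint.coe_injective (h g g.2)⟩ :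
        MulAction.fixedPoints V X.carrier), rfl⟩

@[reassoc]
theorem fixι_act (X : GSpace G) (V : Subgroup G) (g : G) (hg : g ∈ V) :
    fixι X V ≫ act X g = fixι X V := by
  apply app_ext
  intro x
  rw [app_comp]
  exact (mem_range_fixι X V _).mp ⟨x, rfl⟩ g hg

theorem mem_range_of_fixed {Y : GSpace G} {V : Subgroup G} {W : LC} (f : W ⟶ L Y)
    (h : ∀ g ∈ V, f ≫ act Y g = f) (w : OnePoint W) : app f w ∈ Set.range (app (fixι Y V)) := by
  rw [mem_range_fixι]
  intro g hg
  rw [← app_comp, h g hg]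

/-- a map with fixed values factors through the fixed points -/
def fixLift {Y : GSpace G} {V : Subgroup G} {W : LC} (f : W ⟶ L Y)
    (h : ∀ g ∈ V, f ≫ act Y g = f) : W ⟶ fixL Y V :=
  factor (fixι Y V) (injective_fixι Y V) f (mem_range_of_fixed f h)

@[reassoc (attr := simp)]
theorem fixLift_ι {Y : GSpace G} {V : Subgroup G} {W : LC} (f : W ⟶ L Y)
    (h : ∀ g ∈ V, f ≫ act Y g = f) : fixLift f h ≫ fixι Y V = f :=
  factor_comp _ _ _ _

/-- the restriction of an equivariant map to the fixed points -/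
def fixMap {X Y : GSpace G} (f : L X ⟶ L Y) (hf : Eqv f) (V : Subgroup G) :
    fixL X V ⟶ fixL Y V :=
  fixLift (fixι X V ≫ f) (fun g hg => by
    rw [Category.assoc, ← hf g, fixι_act_assoc X V g hg])

@[reassoc (attr := simp)]
theorem fixMap_ι {X Y : GSpace G} (f : L X ⟶ L Y) (hf : Eqv f) (V : Subgroup G) :
    fixMap f hf V ≫ fixι Y V = fixι X V ≫ f := fixLift_ι _ _

theorem fixMap_id (X : GSpace G) (V : Subgroup G) : fixMap (𝟙 (L X)) (eqv_id X) V = 𝟙 _ := by
  rw [← cancel_mono (fixι X V), fixMap_ι, Category.comp_id, Category.id_comp]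

theorem fixMap_comp {X Y Z : GSpace G} (f : L X ⟶ L Y) (hf : Eqv f) (k : L Y ⟶ L Z) (hk : Eqv k)
    (V : Subgroup G) : fixMap (f ≫ k) (hf.comp hk) V = fixMap f hf V ≫ fixMap k hk V := by
  rw [← cancel_mono (fixι Z V), fixMap_ι, Category.assoc, fixMap_ι, fixMap_ι_assoc]

theorem fixMap_zero (X Y : GSpace G) (V : Subgroup G) :
    fixMap (0 : L X ⟶ L Y) (eqv_zero X Y) V = 0 := by
  rw [← cancel_mono (fixι Y V), fixMap_ι, comp_zero, zero_comp]

theorem fixMap_congr {X Y : GSpace G} {f f' : L X ⟶ L Y} (h : f = f') (hf : Eqv f)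
    (V : Subgroup G) : fixMap f hf V = fixMap f' (h ▸ hf) V := by
  subst h; rfl

/-- the restriction of an equivariant homotopy to the fixed points -/
def fixHt {X Y : GSpace G} (K : L X ⊗ II ⟶ L Y) (hK : EqvH K) (V : Subgroup G) :
    fixL X V ⊗ II ⟶ fixL Y V :=
  fixLift (fixι X V ▷ II ≫ K) (fun g hg => by
    rw [Category.assoc, ← hK g, ← Category.assoc, ← MonoidalCategory.comp_whiskerRight,
      fixι_act X V g hg])

@[reassoc (attr := simp)]
theorem fixHt_ι {X Y : GSpace G} (K : L X ⊗ II ⟶ L Y) (hK : EqvH K) (V : Subgroup G) :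
    fixHt K hK V ≫ fixι Y V = fixι X V ▷ II ≫ K := fixLift_ι _ _

theorem GHtp.fix {X Y : GSpace G} {f f' : L X ⟶ L Y} (h : GHtp f f') (hf : Eqv f) (hf' : Eqv f')
    (V : Subgroup G) : LC.Homotopic (fixMap f hf V) (fixMap f' hf' V) := by
  obtain ⟨K, hK, h0, h1⟩ := h
  refine ⟨fixHt K hK V, ?_, ?_⟩
  · rw [← cancel_mono (fixι Y V), Category.assoc, fixHt_ι, incl_naturality_assoc, h0, fixMap_ι]
  · rw [← cancel_mono (fixι Y V), Category.assoc, fixHt_ι, incl_naturality_assoc, h1, fixMap_ι]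

theorem injective_fixMap {X Y : GSpace G} {f : L X ⟶ L Y} (hf : Eqv f)
    (hi : Function.Injective (app f)) (V : Subgroup G) :
    Function.Injective (app (fixMap f hf V)) := by
  have h : Function.Injective (app (fixMap f hf V ≫ fixι Y V)) := by
    rw [fixMap_ι]
    exact hi.comp (injective_fixι X V)
  intro x y hxy
  exact h (congrArg (app (fixι Y V)) hxy)

/-- an injective equivariant map reflects fixed points -/
theorem mem_range_fixMap {X Y : GSpace G} {f : L X ⟶ L Y} (hf : Eqv f)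
    (hi : Function.Injective (app f)) (V : Subgroup G) (y : OnePoint (fixL Y V)) :
    y ∈ Set.range (app (fixMap f hf V)) ↔ app (fixι Y V) y ∈ Set.range (app f) := by
  constructor
  · rintro ⟨x, rfl⟩
    exact ⟨app (fixι X V) x, by rw [← app_comp, ← app_comp, fixMap_ι]⟩
  · rintro ⟨x, hx⟩
    have h : x ∈ Set.range (app (fixι X V)) := by
      rw [mem_range_fixι]
      intro g hg
      apply hi
      rw [← app_comp, hf g, app_comp, hx]
      exact (mem_range_fixι Y V _).mp ⟨y, rfl⟩ g hg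
    obtain ⟨x', rfl⟩ := h
    refine ⟨x', injective_fixι Y V ?_⟩
    rw [← app_comp, fixMap_ι, app_comp, hx]

end fix

/-! ### products and trivial actions -/

section prod

/-- the `LC` object of a product (the identity) -/
def pr (X Y : GSpace G) : L X ⊗ L Y ≅ L (X.prod Y) := Iso.refl _

theorem app_pr_hom (X Y : GSpace G) (x : X.carrier) (y : Y.carrier) :
    app (pr X Y).hom (LC.smash (x : OnePoint X.carrier) (y : OnePoint Y.carrier)) =
      OnePoint.some ((x, y) : X.carrier × Y.carrier) := rfl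

/-- the `LC` object of a space with trivial action (the identity) -/
def tr (G : Type) [Group G] (Y : Space) : toLC Y ≅ L (GSpace.triv G Y) := Iso.refl _

theorem act_triv (Y : Space) (g : G) : act (GSpace.triv G Y) g = 𝟙 _ := by
  apply hom_ext
  intro y
  rfl

@[reassoc]
theorem pr_act (X Y : GSpace G) (g : G) :
    (pr X Y).hom ≫ act (X.prod Y) g = (act X g ⊗ₘ act Y g) ≫ (pr X Y).hom := by
  apply tensor_ext
  intro x y
  rw [app_comp, app_comp, app_tensorHom_smash]
  rfl

/-- the product of two maps -/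
def gten {X Y X' Y' : GSpace G} (f : L X ⟶ L X') (k : L Y ⟶ L Y') :
    L (X.prod Y) ⟶ L (X'.prod Y') :=
  (pr X Y).inv ≫ (f ⊗ₘ k) ≫ (pr X' Y').hom

@[reassoc]
theorem pr_gten {X Y X' Y' : GSpace G} (f : L X ⟶ L X') (k : L Y ⟶ L Y') :
    (pr X Y).hom ≫ gten f k = (f ⊗ₘ k) ≫ (pr X' Y').hom := by
  rw [gten, Iso.hom_inv_id_assoc]

theorem eqv_gten {X Y X' Y' : GSpace G} {f : L X ⟶ L X'} {k : L Y ⟶ L Y'} (hf : Eqv f)
    (hk : Eqv k) : Eqv (gten f k) := by
  intro g
  rw [← cancel_epi (pr X Y).hom, pr_act_assoc, pr_gten, pr_gten_assoc, pr_act,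
    MonoidalCategory.tensorHom_comp_tensorHom_assoc,
    MonoidalCategory.tensorHom_comp_tensorHom_assoc, hf g, hk g]

/-- the product `X × Y`, where `Y` has the trivial action -/
abbrev xt (X : GSpace G) (Y : Space) : GSpace G := X.prod (GSpace.triv G Y)

/-- the `LC` object of `X × Y` -/
def pt (X : GSpace G) (Y : Space) : L X ⊗ toLC Y ≅ L (xt X Y) :=
  whiskerLeftIso (L X) (tr G Y) ≪≫ pr X (GSpace.triv G Y)

@[reassoc]
theorem pt_act (X : GSpace G) (Y : Space) (g : G) :
    (pt X Y).hom ≫ act (xt X Y) g = (act X g ▷ toLC Y) ≫ (pt X Y).hom := by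
  apply tensor_ext
  intro x y
  rw [app_comp, app_comp, app_whiskerRight_smash]
  rfl

/-- `f × 1` -/
def wr {X X' : GSpace G} (f : L X ⟶ L X') (Y : Space) : L (xt X Y) ⟶ L (xt X' Y) :=
  (pt X Y).inv ≫ (f ▷ toLC Y) ≫ (pt X' Y).hom

@[reassoc]
theorem pt_wr {X X' : GSpace G} (f : L X ⟶ L X') (Y : Space) :
    (pt X Y).hom ≫ wr f Y = (f ▷ toLC Y) ≫ (pt X' Y).hom := by
  rw [wr, Iso.hom_inv_id_assoc]

/-- `1 × f` -/
def wl (X : GSpace G) {Y Y' : Space} (f : toLC Y ⟶ toLC Y') : L (xt X Y) ⟶ L (xt X Y') :=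
  (pt X Y).inv ≫ (L X ◁ f) ≫ (pt X Y').hom

@[reassoc]
theorem pt_wl (X : GSpace G) {Y Y' : Space} (f : toLC Y ⟶ toLC Y') :
    (pt X Y).hom ≫ wl X f = (L X ◁ f) ≫ (pt X Y').hom := by
  rw [wl, Iso.hom_inv_id_assoc]

theorem eqv_wr {X X' : GSpace G} {f : L X ⟶ L X'} (hf : Eqv f) (Y : Space) :
    Eqv (wr f Y) := by
  intro g
  rw [← cancel_epi (pt X Y).hom, pt_act_assoc, pt_wr, pt_wr_assoc, pt_act,
    ← MonoidalCategory.comp_whiskerRight_assoc, ← MonoidalCategory.comp_whiskerRight_assoc, hf g]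

theorem eqv_wl (X : GSpace G) {Y Y' : Space} (f : toLC Y ⟶ toLC Y') :
    Eqv (wl X f) := by
  intro g
  rw [← cancel_epi (pt X Y).hom, pt_act_assoc, pt_wl, pt_wl_assoc, pt_act,
    MonoidalCategory.whisker_exchange_assoc]

/-- a map `X ⊗ Y ⟶ X' ⊗ Y'` which commutes with the action on the first factor -/
theorem eqv_conj {X X' : GSpace G} {Y Y' : Space} {f : L X ⊗ toLC Y ⟶ L X' ⊗ toLC Y'}
    (hf : ∀ g, (act X g ▷ toLC Y) ≫ f = f ≫ (act X' g ▷ toLC Y')) :
    Eqv (X := xt X Y) (Y := xt X' Y') ((pt X Y).inv ≫ f ≫ (pt X' Y').hom) := by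
  intro g
  rw [← cancel_epi (pt X Y).hom, pt_act_assoc, Category.assoc, Category.assoc,
    Iso.hom_inv_id_assoc, Iso.hom_inv_id_assoc, pt_act, reassoc_of% hf g]

/-- the fixed points of a product -/
def fixProdHomeo (X Y : GSpace G) (V : Subgroup G) :
    ((X.fix V).carrier × (Y.fix V).carrier) ≃ₜ ((X.prod Y).fix V).carrier where
  toFun p := ⟨(p.1.1, p.2.1), fun g => Prod.ext (p.1.2 g) (p.2.2 g)⟩
  invFun p := (⟨p.1.1, fun g => congrArg Prod.fst (p.2 g)⟩,
    ⟨p.1.2, fun g => congrArg Prod.snd (p.2 g)⟩)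
  left_inv _ := rfl
  right_inv _ := rfl
  continuous_toFun :=
    (isClosedEmbedding_fix (X.prod Y) V).isEmbedding.continuous_iff.mpr
      (((isClosedEmbedding_fix X V).continuous.comp continuous_fst).prodMk
        ((isClosedEmbedding_fix Y V).continuous.comp continuous_snd))
  continuous_invFun := by
    refine Continuous.prodMk ?_ ?_
    · exact (isClosedEmbedding_fix X V).isEmbedding.continuous_iff.mpr
        (continuous_fst.comp (isClosedEmbedding_fix (X.prod Y) V).continuous)
    · exact (isClosedEmbedding_fix Y V).isEmbedding.continuous_iff.mpr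
        (continuous_snd.comp (isClosedEmbedding_fix (X.prod Y) V).continuous)

/-- the fixed points of a product, in `LC` -/
def fixProd (X Y : GSpace G) (V : Subgroup G) :
    fixL X V ⊗ fixL Y V ≅ fixL (X.prod Y) V :=
  ofHomeo (X := fixL X V ⊗ fixL Y V) (Y := fixL (X.prod Y) V) (fixProdHomeo X Y V)

@[reassoc]
theorem fixProd_hom_ι (X Y : GSpace G) (V : Subgroup G) :
    (fixProd X Y V).hom ≫ fixι (X.prod Y) V = (fixι X V ⊗ₘ fixι Y V) ≫ (pr X Y).hom := by
  apply tensor_ext
  intro x y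
  rw [app_comp, app_comp, app_tensorHom_smash]
  rfl

/-- the fixed points of a space with trivial action -/
def fixTrivHomeo (Y : Space) (V : Subgroup G) :
    ((GSpace.triv G Y).fix V).carrier ≃ₜ Y.carrier where
  toFun p := p.1
  invFun y := ⟨y, fun _ => rfl⟩
  left_inv _ := rfl
  right_inv _ := rfl
  continuous_toFun := (isClosedEmbedding_fix (GSpace.triv G Y) V).continuous
  continuous_invFun :=
    (isClosedEmbedding_fix (GSpace.triv G Y) V).isEmbedding.continuous_iff.mpr continuous_id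

/-- the fixed points of a space with trivial action, in `LC` -/
def fixTriv (Y : Space) (V : Subgroup G) : toLC Y ≅ fixL (GSpace.triv G Y) V :=
  (ofHomeo (X := fixL (GSpace.triv G Y) V) (Y := toLC Y) (fixTrivHomeo Y V)).symm

@[reassoc]
theorem fixTriv_hom_ι (Y : Space) (V : Subgroup G) :
    (fixTriv Y V).hom ≫ fixι (GSpace.triv G Y) V = (tr G Y).hom := by
  apply hom_ext
  intro y
  rfl

/-- the fixed points of `X × Y`, where `Y` has the trivial action -/
def fixXt (X : GSpace G) (Y : Space) (V : Subgroup G) :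
    fixL X V ⊗ toLC Y ≅ fixL (xt X Y) V :=
  whiskerLeftIso (fixL X V) (fixTriv Y V) ≪≫ fixProd X (GSpace.triv G Y) V

@[reassoc]
theorem fixXt_hom_ι (X : GSpace G) (Y : Space) (V : Subgroup G) :
    (fixXt X Y V).hom ≫ fixι (xt X Y) V = (fixι X V ▷ toLC Y) ≫ (pt X Y).hom := by
  apply tensor_ext
  intro x y
  rw [app_comp, app_comp, app_whiskerRight_smash]
  rfl

/-- fixed points of `f × 1` -/
@[reassoc]
theorem fixXt_wr {X X' : GSpace G} {f : L X ⟶ L X'} (hf : Eqv f) (Y : Space)
    (V : Subgroup G) :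
    (fixXt X Y V).hom ≫ fixMap (wr f Y) (eqv_wr hf Y) V =
      (fixMap f hf V ▷ toLC Y) ≫ (fixXt X' Y V).hom := by
  rw [← cancel_mono (fixι (xt X' Y) V), Category.assoc, fixMap_ι,
    fixXt_hom_ι_assoc, pt_wr, Category.assoc, fixXt_hom_ι,
    ← MonoidalCategory.comp_whiskerRight_assoc, ← MonoidalCategory.comp_whiskerRight_assoc,
    fixMap_ι]

/-- fixed points of `1 × f` -/
@[reassoc]
theorem fixXt_wl (X : GSpace G) {Y Y' : Space} (f : toLC Y ⟶ toLC Y') (V : Subgroup G) :
    (fixXt X Y V).hom ≫ fixMap (wl X f) (eqv_wl X f) V =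
      (fixL X V ◁ f) ≫ (fixXt X Y' V).hom := by
  rw [← cancel_mono (fixι (xt X Y') V), Category.assoc, fixMap_ι,
    fixXt_hom_ι_assoc, pt_wl, Category.assoc, fixXt_hom_ι,
    MonoidalCategory.whisker_exchange_assoc]

end prod

end Vale.Agent.P241.Geo
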