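import Vale.Agent.P241.H132.Stage
import Vale.Agent.P251.St.ToLC
import Vale.Agent.P251.G.Glue
import Vale.Agent.P251.G.RelCell

/-!
# P241, block GEO: the powers of the star are finite cell spaces

* `fc_star` : the star of a finite set is a finite cell space;
* `fc_piFin` : powers of finite cell spaces;
* `tpFC : H132.TpFC`.
-/

open CategoryTheory MonoidalCategory Limits OnePoint Topology
open Vale.Agent.P251.G Vale.Agent.P251.G.LC Vale.Agent.P251.St Vale.Agent.P241.St
open Vale.Agent.P241.Final

noncomputable section

namespace Vale.Agent.P241.Geo

theorem lc_starSet (I : Type) [Finite I] : LocallyCompactSpace (starSet I) :=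
  (isClosed_starSet I).isClosedEmbedding_subtypeVal.locallyCompactSpace

/-- the star of `I` as an object of `LC` -/
def SI (I : Type) [Finite I] : LC :=
  haveI := lc_starSet I
  LC.of (starSet I)

theorem zero_mem_starSet (I : Type) : (0 : I → ℝ) ∈ starSet I :=
  ⟨fun _ => le_rfl, fun _ _ _ => Or.inl rfl⟩

/-- the last ray -/
def rayN (I : Type) (t : NNReal) : starSet (Option I) :=
  ⟨fun o => o.elim (t : ℝ) (fun _ => 0), fun o => by
    cases o
    · exact t.2
    · exact le_rfl, fun o o' h => by
    cases o
    · cases o'
      · exact absurd rfl h
      · exact Or.inr rfl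
    · exact Or.inl rfl⟩

/-- the other rays -/
def extN (I : Type) (x : starSet I) : starSet (Option I) :=
  ⟨fun o => o.elim 0 x.1, fun o => by
    cases o
    · exact le_rfl
    · exact x.2.1 _, fun o o' h => by
    cases o
    · exact Or.inl rfl
    · cases o'
      · exact Or.inr rfl
      · exact x.2.2 _ _ (fun h' => h (congrArg Option.some h'))⟩

theorem isClosedEmbedding_rayN (I : Type) : IsClosedEmbedding (rayN I) := by
  refine Function.LeftInverse.isClosedEmbedding
    (f := fun x : starSet (Option I) => (⟨x.1 none, x.2.1 none⟩ : NNReal)) (fun _ => rfl) ?_ ?_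
  · exact Continuous.subtype_mk ((continuous_apply none).comp continuous_subtype_val) _
  · refine Continuous.subtype_mk (continuous_pi fun o => ?_) _
    cases o
    · exact NNReal.continuous_coe
    · exact continuous_const

theorem isClosedEmbedding_extN (I : Type) : IsClosedEmbedding (extN I) := by
  refine Function.LeftInverse.isClosedEmbedding
    (f := fun x : starSet (Option I) => (⟨fun i => x.1 (Option.some i), fun i => x.2.1 _, fun i j h =>
      x.2.2 _ _ (fun h' => h (Option.some_injective _ h'))⟩ : starSet I)) (fun _ => rfl) ?_ ?_
  · refine Continuous.subtype_mk (continuous_pi fun i => ?_) _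
    exact (continuous_apply (Option.some i)).comp
      (continuous_subtype_val (p := fun z => z ∈ starSet (Option I)))
  · refine Continuous.subtype_mk (continuous_pi fun o => ?_) _
    cases o
    · exact continuous_const
    · exact (continuous_apply _).comp continuous_subtype_val

/-- the last ray, in `LC` -/
def rayL (I : Type) [Finite I] : HH ⟶ SI (Option I) :=
  haveI := lc_starSet (Option I)
  ofClosed (X := HH) (Y := SI (Option I)) (rayN I) (isClosedEmbedding_rayN I)

/-- the other rays, in `LC` -/
def extL (I : Type) [Finite I] : SI I ⟶ SI (Option I) :=
  ofClosed (X := SI I) (Y := SI (Option I)) (extN I) (isClosedEmbedding_extN I)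

theorem app_rayL (I : Type) [Finite I] (t : NNReal) :
    app (rayL I) (t : OnePoint NNReal) = OnePoint.some (rayN I t) := rfl

theorem app_extL (I : Type) [Finite I] (x : starSet I) :
    app (extL I) (OnePoint.some x) = OnePoint.some (extN I x) := rfl

/-- the centre of the star -/
def zeroS (I : Type) [Finite I] : SI I := (⟨0, zero_mem_starSet I⟩ : starSet I)

theorem mem_range_point {X : LC} (x y : X) :
    OnePoint.some y ∈ Set.range (app (point x)) ↔ y = x := by
  constructor
  · rintro ⟨u, hu⟩
    induction u using OnePoint.rec with
    | infty => exact absurd ((app_infty (point x)).symm.trans hu) (OnePoint.infty_ne_coe _)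
    | coe u => exact (OnePoint.coe_injective hu).symm
  · rintro rfl
    exact ⟨OnePoint.some (), rfl⟩

theorem mem_range_extL (I : Type) [Finite I] (x : starSet (Option I)) :
    OnePoint.some x ∈ Set.range (app (extL I)) ↔ x.1 none = 0 := by
  constructor
  · rintro ⟨u, hu⟩
    induction u using OnePoint.rec with
    | infty => exact absurd ((app_infty (extL I)).symm.trans hu) (OnePoint.infty_ne_coe _)
    | coe u =>
      have h : extN I u = x := OnePoint.coe_injective hu
      rw [← h]
      rfl
  · intro h
    refine ⟨OnePoint.some (⟨fun i => x.1 (Option.some i), fun i => x.2.1 _, fun i j h =>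
      x.2.2 _ _ (fun h' => h (Option.some_injective _ h'))⟩ : starSet I), ?_⟩
    refine congrArg OnePoint.some (Subtype.ext (funext fun o => ?_))
    cases o
    · exact h.symm
    · rfl

theorem isPushout_star (I : Type) [Finite I] :
    IsPushout (point (X := HH) (0 : NNReal)) (point (X := SI I) (zeroS I)) (rayL I) (extL I) := by
  refine isPushout_of ?_ ?_ ⟨?_, ?_, ?_⟩
  · apply hom_ext
    intro u
    refine congrArg OnePoint.some (Subtype.ext (funext fun o => ?_))
    cases o
    · exact NNReal.coe_zero
    · rfl
  · exact injective_app_ofClosed (Y := SI (Option I)) _ (isClosedEmbedding_extN I)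
  · intro p hp
    induction p using OnePoint.rec with
    | infty => exact absurd ⟨∞, app_infty _⟩ hp
    | coe t =>
      intro h
      have h1 : (rayN I t).1 none = 0 := (mem_range_extL I (rayN I t)).mp h
      exact hp ((mem_range_point (X := HH) 0 t).mpr (NNReal.coe_injective h1))
  · intro p _ p' _ h
    exact injective_app_ofClosed (Y := SI (Option I)) _ (isClosedEmbedding_rayN I) h
  · intro y hy
    induction y using OnePoint.rec with
    | infty => exact absurd ⟨∞, app_infty _⟩ hy
    | coe x =>
      change starSet (Option I) at x
      have h0 : x.1 none ≠ 0 := fun h => hy ((mem_range_extL I x).mpr h)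
      have h1 : ∀ i, x.1 (Option.some i) = 0 := fun i =>
        (x.2.2 none (Option.some i) (fun h => by cases h)).resolve_left h0
      refine ⟨OnePoint.some (⟨x.1 none, x.2.1 none⟩ : NNReal), fun h => h0 ?_, ?_⟩
      · exact congrArg NNReal.toReal ((mem_range_point (X := HH) 0 _).mp h)
      · refine congrArg OnePoint.some (Subtype.ext (funext fun o => ?_))
        cases o
        · rfl
        · exact (h1 _).symm

/-- the star of a finite set is a finite cell space -/
theorem fc_star (I : Type) [Finite I] : LC.FC (SI I) := by
  refine Finite.induction_empty_option (P := fun I : Type => ∀ [Finite I], LC.FC (SI I))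
    ?_ ?_ ?_ I
  · intro α β e h _
    have : Finite α := Finite.of_equiv β e.symm
    refine FC.of_homeo (X := SI α) (Y := SI β) h
      { toFun := fun x => (⟨fun b => (x : starSet α).1 (e.symm b), fun b => x.2.1 _,
          fun b b' hb => x.2.2 _ _ (fun h' => hb (e.symm.injective h'))⟩ : starSet β)
        invFun := fun x => (⟨fun b => (x : starSet β).1 (e b), fun b => x.2.1 _,
          fun b b' hb => x.2.2 _ _ (fun h' => hb (e.injective h'))⟩ : starSet α)
        left_inv := fun x => Subtype.ext (funext fun b => congrArg x.1 (e.symm_apply_apply b))
        right_inv := fun x => Subtype.ext (funext fun b => congrArg x.1 (e.apply_symm_apply b))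
        continuous_toFun := Continuous.subtype_mk (continuous_pi fun b =>
          (continuous_apply (e.symm b)).comp
            (continuous_subtype_val (p := fun z => z ∈ starSet α))) _
        continuous_invFun := Continuous.subtype_mk (continuous_pi fun b =>
          (continuous_apply (e b)).comp
            (continuous_subtype_val (p := fun z => z ∈ starSet β))) _ }
  · intro _
    have : Unique (SI PEmpty) :=
      { default := zeroS PEmpty
        uniq := fun x => Subtype.ext (funext fun i => i.elim) }
    exact FC.of_unique _
  · intro α _ h _
    exact FC.pushout FC.unit FC.halfLine h cofib_point_zero (isPushout_star α)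

/-- powers of finite cell spaces -/
theorem fc_piFin {X : LC} (hX : LC.FC X) (k : ℕ) : LC.FC (LC.of (Fin k → X)) := by
  induction k with
  | zero =>
    have : Unique (LC.of (Fin 0 → X)) := inferInstanceAs (Unique (Fin 0 → X))
    exact FC.of_unique _
  | succ k ih =>
    refine FC.of_homeo (X := X ⊗ LC.of (Fin k → X)) (Y := LC.of (Fin (k + 1) → X))
      (hX.tensor ih)
      { toFun := fun p => Fin.cons (α := fun _ => X) p.1 p.2
        invFun := fun z => (z 0, fun l => z l.succ)
        left_inv := fun p => rfl
        right_inv := fun z => Fin.cons_self_tail z
        continuous_toFun := ?_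
        continuous_invFun := ?_ }
    · refine continuous_pi fun l => ?_
      induction l using Fin.cases with
      | zero => exact continuous_fst
      | succ l => exact (continuous_apply l).comp continuous_snd
    · exact (continuous_apply 0).prodMk (continuous_pi fun l => continuous_apply l.succ)

/-- **The powers of the star are finite cell spaces.** -/
theorem tpFC : H132.TpFC := by
  intro W _ _ k
  rw [fc_iff]
  refine FC.of_homeo (X := LC.of (Fin k → SI W)) (Y := toLC (tp W W k).und)
    (fc_piFin (fc_star W) k)
    { toFun := fun z => (⟨fun l => (z l : starSet W).1, fun l => (z l : starSet W).2⟩ :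
        starPow W k)
      invFun := fun z l => (⟨(z : starPow W k).1 l, z.2 l⟩ : starSet W)
      left_inv := fun _ => rfl
      right_inv := fun _ => rfl
      continuous_toFun := Continuous.subtype_mk (continuous_pi fun l =>
        continuous_subtype_val.comp (continuous_apply l)) _
      continuous_invFun := continuous_pi fun l => Continuous.subtype_mk
        ((continuous_apply l).comp continuous_subtype_val) _ }

end Vale.Agent.P241.Geo
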