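import Vale.Agent.P251.St.Chrom
import Mathlib.Topology.Algebra.ConstMulAction
import Mathlib.GroupTheory.GroupAction.Quotient
import Mathlib.GroupTheory.GroupAction.SubMulAction

/-!
# P241, statement layer: finite pointed `G`-cell spaces

`GSpace G` : locally compact Hausdorff spaces with a continuous action of the (discrete) group `G`.
As in `P251/St/Base.lean`, `X` stands for the pointed compact space `X⁺` (one-point
compactification), with the induced action; the base point is fixed.

* `GMap X Y` : pointed continuous `G`-maps `X⁺ → Y⁺`.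
* `X.fix H` : the space of `H`-fixed points; `(X.fix H)⁺ = (X⁺)^H`.
* `GFC G X` : `X` is a finite `G`-cell space: the smallest class of `G`-spaces which contains the
  empty space and the cells `G/V × ℝⁿ`, and is closed under `G`-homotopy equivalence and under
  extensions along `G`-cofibrations.
-/

open OnePoint Vale.Agent.P251.St

namespace Vale.Agent.P241.St

/-- A locally compact Hausdorff space with an action of the discrete group `G`. -/
structure GSpace (G : Type) [Group G] where
  /-- the underlying type -/
  carrier : Type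
  [top : TopologicalSpace carrier]
  [lc : LocallyCompactSpace carrier]
  [t2 : T2Space carrier]
  [act : MulAction G carrier]
  [cont : ContinuousConstSMul G carrier]

attribute [instance] GSpace.top GSpace.lc GSpace.t2 GSpace.act GSpace.cont

variable {G : Type} [Group G]

namespace GSpace

/-- The underlying space. -/
abbrev und (X : GSpace G) : Space := ⟨X.carrier⟩

/-- The action on the one-point compactification; the point `∞` is fixed. -/
def smul (X : GSpace G) (g : G) : X.und.Pt → X.und.Pt := OnePoint.map (g • ·)

theorem isClosed_fixedPoints (X : GSpace G) (H : Subgroup G) :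
    IsClosed (MulAction.fixedPoints H X.carrier) := by
  have h : MulAction.fixedPoints H X.carrier = ⋂ g : H, {x : X.carrier | (g : G) • x = x} := by
    ext x
    simp only [MulAction.mem_fixedPoints, Set.mem_iInter]
    rfl
  rw [h]
  exact isClosed_iInter fun g => isClosed_eq (continuous_const_smul (g : G)) continuous_id

theorem lc_fixedPoints (X : GSpace G) (H : Subgroup G) :
    LocallyCompactSpace (MulAction.fixedPoints H X.carrier) :=
  (X.isClosed_fixedPoints H).isClosedEmbedding_subtypeVal.locallyCompactSpace

/-- The space of `H`-fixed points: `(X.fix H)⁺` is the space of `H`-fixed points of `X⁺`. -/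
def fix (X : GSpace G) (H : Subgroup G) : Space :=
  @Space.mk (MulAction.fixedPoints H X.carrier) _ (X.lc_fixedPoints H) _

/-- The space `X` with the action restricted along a homomorphism. -/
def res {H : Type} [Group H] (φ : H →* G) (X : GSpace G) : GSpace H :=
  letI : MulAction H X.carrier := MulAction.compHom X.carrier φ
  haveI : ContinuousConstSMul H X.carrier := ⟨fun h => continuous_const_smul (φ h)⟩
  ⟨X.carrier⟩

/-- The product with the diagonal action: `(X × Y)⁺ = X⁺ ∧ Y⁺`. -/
def prod (X Y : GSpace G) : GSpace G := ⟨X.carrier × Y.carrier⟩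

/-- A space with the trivial action. -/
def triv (G : Type) [Group G] (X : Space) : GSpace G :=
  letI : MulAction G X.carrier :=
    { smul := fun _ x => x
      one_smul := fun _ => rfl
      mul_smul := fun _ _ _ => rfl }
  haveI : ContinuousConstSMul G X.carrier := ⟨fun _ => continuous_id⟩
  ⟨X.carrier⟩

end GSpace

theorem lc_of_discrete (X : Type) [TopologicalSpace X] [DiscreteTopology X] :
    LocallyCompactSpace X :=
  have : WeaklyLocallyCompactSpace X := ⟨fun x => ⟨{x}, isCompact_singleton, by simp⟩⟩
  inferInstance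

/-- The cell `G/V × ℝⁿ` of type `V` and dimension `n` (`G` acts by left translation on the first
factor): `(G/V × ℝⁿ)⁺ = (G/V)₊ ∧ Sⁿ`. -/
def cell (G : Type) [Group G] (V : Subgroup G) (n : ℕ) : GSpace G :=
  letI : TopologicalSpace (G ⧸ V) := ⊥
  haveI : DiscreteTopology (G ⧸ V) := ⟨rfl⟩
  haveI : LocallyCompactSpace (G ⧸ V) := lc_of_discrete _
  letI : MulAction G ((G ⧸ V) × (Fin n → ℝ)) :=
    { smul := fun g x => (g • x.1, x.2)
      one_smul := fun x => Prod.ext (one_smul G x.1) rfl
      mul_smul := fun g h x => Prod.ext (mul_smul g h x.1) rfl }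
  haveI : ContinuousConstSMul G ((G ⧸ V) × (Fin n → ℝ)) :=
    ⟨fun _ => (continuous_of_discreteTopology.comp continuous_fst).prodMk continuous_snd⟩
  ⟨(G ⧸ V) × (Fin n → ℝ)⟩

/-- `f : X⁺ → Y⁺` is equivariant. -/
def IsGMap {X Y : GSpace G} (f : X.und.Pt → Y.und.Pt) : Prop :=
  ∀ (g : G) (x : X.und.Pt), f (X.smul g x) = Y.smul g (f x)

/-- `H` is an equivariant homotopy through pointed maps. -/
def IsGHtpy {X Y : GSpace G} (H : unitInterval → X.und.Pt → Y.und.Pt) : Prop :=
  IsHtpy (X := X.und) (Y := Y.und) H ∧ ∀ t, IsGMap (X := X) (Y := Y) (H t)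

/-- `G`-homotopic maps. -/
def GHomotopic {X Y : GSpace G} (f g : X.und.Pt → Y.und.Pt) : Prop :=
  ∃ H : unitInterval → X.und.Pt → Y.und.Pt, IsGHtpy (X := X) (Y := Y) H ∧ H 0 = f ∧ H 1 = g

/-- `X⁺` and `Y⁺` are `G`-homotopy equivalent. -/
def GHEquiv (X Y : GSpace G) : Prop :=
  ∃ (f : Map X.und Y.und) (g : Map Y.und X.und), IsGMap (X := X) (Y := Y) f.toFun ∧
    IsGMap (X := Y) (Y := X) g.toFun ∧ GHomotopic (X := X) (Y := X) (g.toFun ∘ f.toFun) id ∧
    GHomotopic (X := Y) (Y := Y) (f.toFun ∘ g.toFun) id

/-- `i` is a `G`-cofibration: the equivariant homotopy extension property. -/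
def GCofib {A B : GSpace G} (i : Map A.und B.und) : Prop :=
  ∀ (Z : GSpace G) (f : Map B.und Z.und) (H : unitInterval → A.und.Pt → Z.und.Pt),
    IsGMap (X := B) (Y := Z) f.toFun → IsGHtpy (X := A) (Y := Z) H →
    H 0 = f.toFun ∘ i.toFun → ∃ K : unitInterval → B.und.Pt → Z.und.Pt,
      IsGHtpy (X := B) (Y := Z) K ∧ K 0 = f.toFun ∧ ∀ t, K t ∘ i.toFun = H t

/-- Finite `G`-cell spaces: the smallest class of `G`-spaces which contains the empty space and all
cells `G/V × ℝⁿ`, and is closed under `G`-homotopy equivalence and under extensions along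
`G`-cofibrations. -/
inductive GFC (G : Type) [Group G] : GSpace G → Prop
  | empty : GFC G (GSpace.triv G Em)
  | cell (V : Subgroup G) (n : ℕ) : GFC G (cell G V n)
  | hequiv {X Y : GSpace G} : GFC G X → GHEquiv X Y → GFC G Y
  | ext {A B C : GSpace G} {i : Map A.und B.und} {q : Map B.und C.und} :
      IsGMap (X := A) (Y := B) i.toFun → IsGMap (X := B) (Y := C) q.toFun →
      GCofib (A := A) (B := B) i → IsQuot i q → GFC G A → GFC G C → GFC G B

end Vale.Agent.P241.St
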